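import Mathlib
import Vale.Agent.Lib.P052.Gram
import Vale.Agent.Lib.P052.Digits
import Vale.Agent.Lib.P052.Clique

/-!
# Borsuk's conjecture fails in dimension 63

The 416 vertices of the strongly regular graph with parameters `(416, 100, 36, 20)` (the `G₂(4)`
graph) are the columns of a projection of rank 65. Projecting away the two-dimensional space spanned
by the differences of three pairwise non-adjacent classes of 32 vertices gives a projection `P` of
rank 63, where `96 P = M` is an integer matrix. The first 320 columns of `P` and a multiple of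
column 320 are 321 points of a 63-dimensional space; two of them are at distance `1 / √3` when
they are not adjacent and nearer otherwise, and no six of them are pairwise adjacent.
-/

namespace Vale.Agent.Results.P052.Dim63

open Finset Vale.Agent.Lib.P052

/-- the projection -/
noncomputable def P : Matrix (Fin 416) (Fin 416) ℝ := fun v u => ((m v u : ℝ) - 3) / 96

theorem P_symm : P.transpose = P := by
  ext v u
  rw [Matrix.transpose_apply, P, P, m_symm u.2 v.2]

theorem P_trace : P.trace = (63 : ℕ) := by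
  have h : (∑ v : Fin 416, (m v v : ℝ)) = 7296 := by
    rw [Fin.sum_univ_eq_sum_range (fun v => (m v v : ℝ)) 416]
    exact_mod_cast trace_m
  rw [Matrix.trace]
  simp only [Matrix.diag, P]
  rw [← Finset.sum_div, Finset.sum_sub_distrib, h]
  simp
  norm_num

theorem P_idem : P * P = P := by
  ext v x
  rw [Matrix.mul_apply]
  simp only [P]
  have h1 : (∑ u : Fin 416, (m v u : ℝ) * m u x) = 96 * m v x + 3456 := by
    rw [Fin.sum_univ_eq_sum_range (fun u => (m v u : ℝ) * m u x) 416]
    exact_mod_cast sum_mul v.2 x.2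
  have h2 : (∑ u : Fin 416, (m v u : ℝ)) = 1248 := by
    rw [Fin.sum_univ_eq_sum_range (fun u => (m v u : ℝ)) 416]
    exact_mod_cast sum_m v.2
  have h3 : (∑ u : Fin 416, (m u x : ℝ)) = 1248 := by
    have : (∑ u : Fin 416, (m u x : ℝ)) = ∑ u : Fin 416, (m x u : ℝ) :=
      Finset.sum_congr rfl fun u _ => by rw [m_symm u.2 x.2]
    rw [this, Fin.sum_univ_eq_sum_range (fun u => (m x u : ℝ)) 416]
    exact_mod_cast sum_m x.2
  have h : ∀ u : Fin 416, ((m v u : ℝ) - 3) / 96 * (((m u x : ℝ) - 3) / 96) =
      ((m v u : ℝ) * m u x - 3 * m v u - 3 * m u x + 9) / 9216 := fun u => by ring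
  simp only [h]
  rw [← Finset.sum_div, Finset.sum_add_distrib, Finset.sum_sub_distrib, Finset.sum_sub_distrib,
    ← Finset.mul_sum, ← Finset.mul_sum, h1, h2, h3]
  simp
  ring

/-- the set of vertices `0, …, 320` as a type -/
abbrev V := Fin 321

/-- the inclusion of the vertices -/
def emb (v : V) : Fin 416 := ⟨v, by have := v.2; omega⟩

/-- the scaling of the last point -/
noncomputable def t : ℝ := (Real.sqrt 222 - 1) / 13

theorem t_sq : 13 * t ^ 2 + 2 * t = 17 := by
  have h : Real.sqrt 222 ^ 2 = 222 := Real.sq_sqrt (by norm_num)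
  rw [t]
  field_simp
  nlinarith [h]

theorem t_pos : 0 < t := by
  have h : (1 : ℝ) < Real.sqrt 222 := by
    rw [Real.lt_sqrt (by norm_num)]
    norm_num
  rw [t]
  linarith

/-- the scaling factors -/
noncomputable def sc (v : V) : ℝ := if v.1 < 320 then 1 else t

theorem adj_iff (a b : ℕ) : Adj a b ↔ NB / 2 ^ (321 * a + b) % 2 = 1 := by
  rw [Adj, Nat.testBit_eq_decide_div_mod_eq, decide_eq_true_iff]

theorem m_adj {v w : ℕ} (hv : v < 321) (hw : w < 321) (h : v ≠ w) (ha : Adj v w) : m v w = 6 := by
  rw [m_val hv hw, (adj_iff v w).1 ha, if_neg (Ne.symm h)]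

theorem m_nadj {v w : ℕ} (hv : v < 321) (hw : w < 321) (h : v ≠ w) (ha : ¬ Adj v w) :
    m v w = 2 := by
  rw [m_val hv hw, if_neg (Ne.symm h)]
  rw [adj_iff] at ha
  omega

theorem m_diag {v : ℕ} (hv : v < 320) : m v v = 18 := by
  have h := m_val (show v < 321 by omega) (show v < 321 by omega)
  have h' := m_le (show v < 416 by omega) v
  rw [if_pos rfl] at h
  omega

theorem m_diag' : m 320 320 = 16 := by
  have h := m_val (show 320 < 321 by omega) (show 320 < 321 by omega)
  have h' := m_le (show 320 < 416 by omega) 320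
  rw [if_pos rfl] at h
  omega

theorem P_of {v w : V} {k : ℕ} (h : m v w = k) : P (emb v) (emb w) = ((k : ℝ) - 3) / 96 := by
  rw [← h]; rfl

/-- the square of the length of point `v` -/
theorem len_lt {v : V} (hv : v.1 < 320) : sc v = 1 ∧ P (emb v) (emb v) = 15 / 96 := by
  refine ⟨if_pos hv, ?_⟩
  rw [P_of (m_diag hv)]
  norm_num

theorem len_last {v : V} (hv : ¬ v.1 < 320) : sc v = t ∧ P (emb v) (emb v) = 13 / 96 := by
  refine ⟨if_neg hv, ?_⟩
  have h : v.1 = 320 := by have := v.2; omega
  have : m v v = 16 := by rw [h]; exact m_diag'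
  rw [P_of this]
  norm_num

theorem main :
    ∃ y : V → EuclideanSpace ℝ (Fin 63),
      (∀ v w : V, v ≠ w → ¬ Adj v w → dist (y v) (y w) = Real.sqrt (1 / 3)) ∧
      (∀ v w : V, dist (y v) (y w) ≤ Real.sqrt (1 / 3)) ∧
      (∀ v w : V, v ≠ w → 0 < dist (y v) (y w)) := by
  obtain ⟨a, ha⟩ := exists_vectors P P_symm P_idem P_trace
  have hd : ∀ v w : V, dist (sc v • a (emb v)) (sc w • a (emb w)) ^ 2 =
      sc v ^ 2 * P (emb v) (emb v) - 2 * (sc v * sc w * P (emb v) (emb w)) +
        sc w ^ 2 * P (emb w) (emb w) := by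
    intro v w
    rw [dist_eq_norm, norm_sub_sq_real, ← real_inner_self_eq_norm_sq, ← real_inner_self_eq_norm_sq]
    simp only [real_inner_smul_left, real_inner_smul_right, ha]
    ring
  have t1 := t_sq
  have t2 := t_pos
  have t3 : t < 2 := by nlinarith
  -- the values
  have key : ∀ v w : V, v ≠ w →
      (¬ Adj v w → dist (sc v • a (emb v)) (sc w • a (emb w)) ^ 2 = 1 / 3) ∧
      dist (sc v • a (emb v)) (sc w • a (emb w)) ^ 2 ≤ 1 / 3 ∧
      0 < dist (sc v • a (emb v)) (sc w • a (emb w)) ^ 2 := by
    intro v w hvw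
    have hne : v.1 ≠ w.1 := fun h => hvw (Fin.ext h)
    rw [hd]
    have hcase : (¬ Adj v w ∧ P (emb v) (emb w) = -1 / 96) ∨
        (Adj v w ∧ P (emb v) (emb w) = 3 / 96) := by
      by_cases h : Adj v w
      · right
        refine ⟨h, ?_⟩
        rw [P_of (m_adj v.2 w.2 hne h)]
        norm_num
      · left
        refine ⟨h, ?_⟩
        rw [P_of (m_nadj v.2 w.2 hne h)]
        norm_num
    by_cases hv : v.1 < 320 <;> by_cases hw : w.1 < 320
    · rw [(len_lt hv).1, (len_lt hw).1, (len_lt hv).2, (len_lt hw).2]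
      rcases hcase with ⟨h1, h2⟩ | ⟨h1, h2⟩
      · rw [h2]
        norm_num
      · rw [h2]
        norm_num [h1]
    · rw [(len_lt hv).1, (len_last hw).1, (len_lt hv).2, (len_last hw).2]
      rcases hcase with ⟨h1, h2⟩ | ⟨h1, h2⟩
      · rw [h2]
        refine ⟨fun _ => ?_, ?_, ?_⟩ <;> nlinarith
      · rw [h2]
        refine ⟨fun h => absurd h1 h, ?_, ?_⟩ <;> nlinarith
    · rw [(len_last hv).1, (len_lt hw).1, (len_last hv).2, (len_lt hw).2]
      rcases hcase with ⟨h1, h2⟩ | ⟨h1, h2⟩
      · rw [h2]
        refine ⟨fun _ => ?_, ?_, ?_⟩ <;> nlinarith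
      · rw [h2]
        refine ⟨fun h => absurd h1 h, ?_, ?_⟩ <;> nlinarith
    · exfalso
      have := v.2
      have := w.2
      omega
  refine ⟨fun v => sc v • a (emb v), ?_, ?_, ?_⟩
  · intro v w hvw hA
    rw [← (key v w hvw).1 hA, Real.sqrt_sq dist_nonneg]
  · intro v w
    by_cases hvw : v = w
    · rw [hvw, dist_self]
      exact Real.sqrt_nonneg _
    · rw [← Real.sqrt_sq (dist_nonneg (x := sc v • a (emb v)) (y := sc w • a (emb w)))]
      exact Real.sqrt_le_sqrt (key v w hvw).2.1
  · intro v w hvw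
    refine lt_of_le_of_ne dist_nonneg fun h => ?_
    have h' := (key v w hvw).2.2
    rw [← h] at h'
    norm_num at h'

/-- **Borsuk's conjecture fails in dimension 63.** There is a set of 321 points in the Euclidean
space of dimension 63 that is not the union of 64 sets of smaller diameter. -/
theorem result :
    ∃ Y : Set (EuclideanSpace ℝ (Fin 63)),
      Y.ncard = 321 ∧ Bornology.IsBounded Y ∧ 0 < Metric.diam Y ∧
      ¬ ∃ P : Fin 64 → Set (EuclideanSpace ℝ (Fin 63)),
        Y = ⋃ i, P i ∧ ∀ i, Metric.diam (P i) < Metric.diam Y := by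
  obtain ⟨y, h1, h2, h3⟩ := main
  have hinj : Function.Injective y := by
    intro v w h
    by_contra hvw
    have := h3 v w hvw
    rw [h, dist_self] at this
    exact lt_irrefl _ this
  have hb : Bornology.IsBounded (Set.range y) := (Set.finite_range y).isBounded
  have hdiam : Metric.diam (Set.range y) ≤ Real.sqrt (1 / 3) := by
    refine Metric.diam_le_of_forall_dist_le (Real.sqrt_nonneg _) ?_
    rintro _ ⟨v, rfl⟩ _ ⟨w, rfl⟩
    exact h2 v w
  refine ⟨Set.range y, ?_, hb, ?_, ?_⟩
  · rw [Set.ncard_eq_toFinset_card', Set.toFinset_range, Finset.card_image_of_injective _ hinj]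
    simp
  · refine lt_of_lt_of_le (h3 0 1 (by decide)) ?_
    exact Metric.dist_le_diam_of_mem hb ⟨0, rfl⟩ ⟨1, rfl⟩
  · rintro ⟨Q, hQ, hQd⟩
    have hc : ∀ v : V, ∃ i : Fin 64, y v ∈ Q i := by
      intro v
      have : y v ∈ ⋃ i, Q i := by rw [← hQ]; exact ⟨v, rfl⟩
      exact Set.mem_iUnion.1 this
    choose c hc using hc
    obtain ⟨i, -, hi⟩ := Finset.exists_lt_card_fiber_of_mul_lt_card_of_maps_to
      (s := (univ : Finset V)) (t := (univ : Finset (Fin 64))) (f := c) (n := 5)
      (fun v _ => mem_univ _) (by simp)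
    have hQb : Bornology.IsBounded (Q i) := hb.subset (by
      rw [hQ]; exact Set.subset_iUnion Q i)
    -- the vertices in the piece are pairwise adjacent
    have hA : ∀ v ∈ univ.filter (fun v => c v = i), ∀ w ∈ univ.filter (fun v => c v = i),
        v ≠ w → Adj v w := by
      intro v hv w hw hvw
      by_contra hn
      have e1 : y v ∈ Q i := by
        have := hc v
        rwa [(mem_filter.1 hv).2] at this
      have e2 : y w ∈ Q i := by
        have := hc w
        rwa [(mem_filter.1 hw).2] at this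
      have e3 := Metric.dist_le_diam_of_mem hQb e1 e2
      rw [h1 v w hvw hn] at e3
      linarith [hQd i]
    have hcard := clique_le (C := (univ.filter (fun v => c v = i)).image (fun v : V => v.1)) ?_ ?_
    · rw [Finset.card_image_of_injective _ Fin.val_injective] at hcard
      omega
    · intro a ha
      obtain ⟨v, -, rfl⟩ := Finset.mem_image.1 ha
      exact v.2
    · intro a ha b hb' hab
      obtain ⟨v, hv, rfl⟩ := Finset.mem_image.1 ha
      obtain ⟨w, hw, rfl⟩ := Finset.mem_image.1 hb'
      exact hA v hv w hw (fun h => hab (by rw [h]))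

end Vale.Agent.Results.P052.Dim63
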